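import Vale.Agent.P050.R2.H261.Close

set_option linter.all false

/-!
Dense targets, module M3b: a shortest cycle inside a thick connected set which is larger than
the cycle is short compared with the number of the remaining vertices.
-/

open MeasureTheory Finset

namespace Vale.Agent.P050.Dense

open Vale.Agent.P050

namespace H322

open H261

/-- two vertices of a closed walk are joined by a walk of at most half of its length -/
lemma half_walk {V : Type*} [DecidableEq V] {G : SimpleGraph V} {v : V} (c : G.Walk v v)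
    {x y : V} (hx : x ∈ c.support) (hy : y ∈ c.support) :
    ∃ p : G.Walk x y, 2 * p.length ≤ c.length := by
  have hy' : y ∈ (c.rotate x hx).support := by
    rw [SimpleGraph.Walk.mem_support_rotate_iff]; exact hy
  have h1 := congrArg SimpleGraph.Walk.length ((c.rotate x hx).take_spec hy')
  rw [SimpleGraph.Walk.length_append, SimpleGraph.Walk.length_rotate] at h1
  by_cases h : 2 * ((c.rotate x hx).takeUntil y hy').length ≤ c.length
  · exact ⟨_, h⟩
  · refine ⟨((c.rotate x hx).dropUntil y hy').reverse, ?_⟩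
    rw [SimpleGraph.Walk.length_reverse]
    omega

variable {V : Type*} [Fintype V] [DecidableEq V]

lemma adj_par {N : V → Finset V} {B C : Finset V} {D : ℕ} (hN : Bip N B D) (hC : C ⊆ B)
    {u v : V} (h : (HG N C).Adj u v) : (u ∈ C ↔ v ∉ C) := by
  rw [HG, SimpleGraph.fromRel_adj] at h
  rcases h.2 with ⟨h1, h2⟩ | ⟨h1, h2⟩
  · exact ⟨fun _ h3 => hN.out u (hC h1) v h2 (hC h3), fun _ => h1⟩
  · exact ⟨fun h3 => absurd (hC h3) (hN.out v (hC h1) u h2), fun h3 => absurd h1 h3⟩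

/-- the whole `B`-side of a cycle lies on the cycle -/
lemma cyc_supp {N : V → Finset V} {B C : Finset V} {D : ℕ} (hN : Bip N B D) (hC : C ⊆ B) {k : ℕ}
    (hk : C.card = k) {v : V} (c : (HG N C).Walk v v) (hc : c.IsCycle) (hl : c.length = 2 * k) :
    ∀ b ∈ C, b ∈ c.support := by
  have par : ∀ i, i ≤ c.length → (c.getVert i ∈ C ↔ (v ∈ C ↔ Even i)) := by
    intro i
    induction i with
    | zero => intro _; simp
    | succ i ih =>
      intro hi
      have h1 := c.adj_getVert_succ (i := i) (by omega)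
      have h2 := adj_par hN hC h1
      have h3 := ih (by omega)
      rw [Nat.even_add_one]
      tauto
  obtain ⟨δ, hδ, hpar⟩ : ∃ δ : ℕ, δ ≤ 1 ∧ ∀ t, t < k → c.getVert (2 * t + 2 - δ) ∈ C := by
    by_cases hv : v ∈ C
    · refine ⟨0, by omega, fun t ht => ?_⟩
      rw [par _ (by omega)]
      refine ⟨fun _ => ⟨t + 1, by omega⟩, fun _ => hv⟩
    · refine ⟨1, le_rfl, fun t ht => ?_⟩
      rw [par _ (by omega)]
      refine ⟨fun h => absurd h hv, fun h => ?_⟩
      exfalso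
      obtain ⟨r, hr⟩ := h
      omega
  have hinj : Set.InjOn (fun t => c.getVert (2 * t + 2 - δ)) (Finset.range k : Set ℕ) := by
    intro s hs t ht hst
    have hs' : s < k := by simpa using hs
    have ht' : t < k := by simpa using ht
    have h1 := hc.getVert_injOn (x₁ := 2 * s + 2 - δ) (x₂ := 2 * t + 2 - δ)
      (by constructor <;> omega) (by constructor <;> omega) hst
    omega
  have hsub : (Finset.range k).image (fun t => c.getVert (2 * t + 2 - δ)) ⊆ C := by
    intro b hb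
    rw [Finset.mem_image] at hb
    obtain ⟨t, ht, rfl⟩ := hb
    exact hpar t (Finset.mem_range.1 ht)
  have heq := Finset.eq_of_subset_of_card_le hsub (by
    rw [Finset.card_image_of_injOn hinj, Finset.card_range, hk])
  intro b hb
  rw [← heq, Finset.mem_image] at hb
  obtain ⟨t, -, rfl⟩ := hb
  exact c.getVert_mem_support _

/-- two vertices of a shortest cycle are joined by a walk of length at most `k` -/
lemma arc {N : V → Finset V} {B C : Finset V} {D : ℕ} (hN : Bip N B D) (hCB : C ⊆ B) {k : ℕ}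
    (hC : CycP N C k) {x y : V} (hx : x ∈ C) (hy : y ∈ C) :
    ∃ p : (HG N C).Walk x y, p.length ≤ k := by
  obtain ⟨h2, hk, hg, v, c, hc, hl⟩ := hC
  have hs := cyc_supp hN hCB hk c hc hl
  obtain ⟨p, hp⟩ := half_walk c (hs x hx) (hs y hy)
  exact ⟨p, by omega⟩

lemma HG_mono {N : V → Finset V} {C γ : Finset V} (h : C ⊆ γ) : HG N C ≤ HG N γ := by
  intro u v huv
  rw [HG, SimpleGraph.fromRel_adj] at huv ⊢
  refine ⟨huv.1, ?_⟩
  rcases huv.2 with ⟨h1, h2⟩ | ⟨h1, h2⟩
  · exact Or.inl ⟨h h1, h2⟩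
  · exact Or.inr ⟨h h1, h2⟩

lemma Pth_mono {N : V → Finset V} {C γ : Finset V} (h : C ⊆ γ) {a₀ : V} :
    ∀ {L : List (V × V)}, Pth N C a₀ L → Pth N γ a₀ L
  | [], _ => trivial
  | (_, _) :: _, hL => ⟨Pth_mono h hL.1, h hL.2.1, hL.2.2⟩

lemma Pth_Bs {N : V → Finset V} {γ : Finset V} {a₀ : V} :
    ∀ {L : List (V × V)}, Pth N γ a₀ L → Bs L ⊆ γ
  | [], _ => by simp [Bs]
  | (b, a) :: L, hL => by
    intro x hx
    rcases mem_Bs_cons.1 hx with h | h
    · rw [h]; exact hL.2.1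
    · exact Pth_Bs hL.1 h

lemma Pth_card {N : V → Finset V} {γ : Finset V} {a₀ : V} :
    ∀ {L : List (V × V)}, Pth N γ a₀ L → L.length = (Bs L).card
  | [], _ => by simp [Bs]
  | (b, a) :: L, hL => by
    have h1 : Bs ((b, a) :: L) = insert b (Bs L) := by
      ext x; simp [Bs]
    rw [h1, Finset.card_insert_of_notMem hL.2.2.1, ← Pth_card hL.1, List.length_cons]

lemma Pth_len {N : V → Finset V} {γ : Finset V} {a₀ : V} {L : List (V × V)}
    (hL : Pth N γ a₀ L) : L.length ≤ γ.card := by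
  rw [Pth_card hL]
  exact Finset.card_le_card (Pth_Bs hL)

/-- an edge and a walk which joins its ends without using it -/
lemma edge_bound {N : V → Finset V} {γ : Finset V} {k : ℕ} (hg : GC N γ k) {u v : V}
    (h : (HG N γ).Adj u v) (p : (HG N γ).Walk v u) (hp : s(u, v) ∉ p.edges) :
    2 * k ≤ p.length + 1 := by
  have h1 : (SimpleGraph.Walk.cons h p.bypass).IsCycle := by
    rw [SimpleGraph.Walk.cons_isCycle_iff]
    exact ⟨p.bypass_isPath, fun h2 => hp (p.edges_bypass_subset_edges h2)⟩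
  have h2 := hg u _ h1
  rw [SimpleGraph.Walk.length_cons] at h2
  have h3 := p.length_bypass_le_length
  omega

/-- closing the path through the cycle -/
lemma close_cyc {N : V → Finset V} {B γ C : Finset V} {D : ℕ} (hN : Bip N B D) (hγ : γ ⊆ B)
    {k : ℕ} (hCγ : C ⊆ γ) (hC : CycP N C k) (hg : GC N γ k) {a₀ b₀ : V} (hb₀ : b₀ ∈ C)
    (ha₀ : a₀ ∈ N b₀) {b a : V} {L : List (V × V)} (hP : Pth N (γ \ C) a₀ ((b, a) :: L))
    {b' : V} (hb' : b' ∈ C) (hab' : a ∈ N b') : k ≤ 2 * (L.length + 1) + 2 := by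
  have hCB : C ⊆ B := hCγ.trans hγ
  obtain ⟨q, hq⟩ := arc hN hCB hC hb₀ hb'
  have hbγ : b ∈ γ \ C := hP.2.1
  have hbC : b ∉ C := (Finset.mem_sdiff.1 hbγ).2
  have hbL : b ∉ Bs L := hP.2.2.1
  have hba : a ∈ N b := hP.2.2.2.2.1
  have hbl : lastA a₀ L ∈ N b := hP.2.2.2.1
  have hal : a ≠ lastA a₀ L := hP.2.2.2.2.2
  have hP' : Pth N γ a₀ (L ++ []) := by
    rw [List.append_nil]; exact Pth_mono Finset.sdiff_subset hP.1
  obtain ⟨w, hw, hl, he⟩ := seg_walk hN hγ L hP'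
  have hbB : b ∈ B := hγ (Finset.mem_sdiff.1 hbγ).1
  -- the closed walk: `a`, `b`, `lastA`, ..., `a₀`, `b₀`, ..., `b'`, `a`
  have e1 : (HG N γ).Adj a b := (adj_HG hN hγ (Finset.mem_sdiff.1 hbγ).1 hba).symm
  have e2 : (HG N γ).Adj b (lastA a₀ (L ++ [])) := by
    rw [List.append_nil]; exact adj_HG hN hγ (Finset.mem_sdiff.1 hbγ).1 hbl
  have e3 : (HG N γ).Adj (lastA a₀ []) b₀ := (adj_HG hN hγ (hCγ hb₀) ha₀).symm
  have e4 : (HG N γ).Adj b' a := adj_HG hN hγ (hCγ hb') hab'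
  have hab : ∀ c ∈ C, b ≠ c := by
    rintro c hc rfl
    exact hbC hc
  have haC : a ∉ C := fun h => hN.out b hbB a hba (hCB h)
  let p : (HG N γ).Walk b a := SimpleGraph.Walk.cons e2
    (w.append (SimpleGraph.Walk.cons e3 ((q.mapLe (HG_mono hCγ)).append
      (SimpleGraph.Walk.cons e4 SimpleGraph.Walk.nil))))
  have hp : s(a, b) ∉ p.edges := by
    simp only [p, SimpleGraph.Walk.edges_cons, SimpleGraph.Walk.edges_append,
      SimpleGraph.Walk.edges_nil, List.mem_cons, List.mem_append, not_or,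
      SimpleGraph.Walk.edges_mapLe_eq_edges]
    refine ⟨?_, ?_, ?_, ?_, ?_, by simp⟩
    · rw [List.append_nil]
      intro h
      rw [Sym2.eq_iff] at h
      rcases h with h | h
      · exact e1.ne h.1
      · exact hal h.1
    · intro h
      exact hbL (he _ h b (Finset.mem_sdiff.1 hbγ).1 (by simp))
    · intro h
      rw [Sym2.eq_iff] at h
      rcases h with h | h
      · exact hab b₀ hb₀ h.2
      · exact haC (h.1 ▸ hb₀)
    · intro h
      have h1 := SimpleGraph.Walk.edges_subset_edgeSet q h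
      rw [SimpleGraph.mem_edgeSet] at h1
      exact haC ((adj_par hN hCB h1).2 hbC)
    · intro h
      rw [Sym2.eq_iff] at h
      rcases h with h | h
      · exact haC (h.1 ▸ hb')
      · exact hab b' hb' h.2
  have h1 := edge_bound hg e1 p hp
  have h2 : p.length = 2 * L.length + q.length + 3 := by
    simp only [p, SimpleGraph.Walk.length_cons, SimpleGraph.Walk.length_append,
      SimpleGraph.Walk.length_nil, SimpleGraph.Walk.length_mapLe, hl]
    omega
  omega

lemma Bs_split {b : V} {L : List (V × V)} (h : b ∈ Bs L) :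
    ∃ L₁ a L₂, L = L₁ ++ (b, a) :: L₂ := by
  rw [Bs, List.mem_toFinset, List.mem_map] at h
  obtain ⟨⟨b', a⟩, h1, h2⟩ := h
  obtain ⟨L₁, L₂, h3⟩ := List.append_of_mem h1
  refine ⟨L₁, a, L₂, ?_⟩
  rw [h3]
  simp only at h2
  rw [h2]

lemma Pth_notMem {N : V → Finset V} {γ : Finset V} {a₀ b a : V} {L₂ : List (V × V)} :
    ∀ {L₁ : List (V × V)}, Pth N γ a₀ (L₁ ++ (b, a) :: L₂) → b ∉ Bs L₁
  | [], _ => by simp [Bs]
  | (x, y) :: L₁, hL => by
    have h1 : Pth N γ a₀ (L₁ ++ (b, a) :: L₂) := hL.1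
    have h2 : x ∉ Bs (L₁ ++ (b, a) :: L₂) := hL.2.2.1
    have h3 := Pth_notMem h1
    rw [mem_Bs_cons, not_or]
    refine ⟨?_, h3⟩
    rintro rfl
    exact h2 (by simp [Bs])

/-- one step of the path: it closes or can be extended -/
lemma core_step {N : V → Finset V} {B γ C : Finset V} {D : ℕ} (hN : Bip N B D) (hγ : γ ⊆ B)
    (ht : Thick N γ) {k : ℕ} (hCγ : C ⊆ γ) (hC : CycP N C k) (hg : GC N γ k) {a₀ b₀ : V}
    (hb₀ : b₀ ∈ C) (ha₀ : a₀ ∈ N b₀) {b a : V} {L : List (V × V)}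
    (hP : Pth N (γ \ C) a₀ ((b, a) :: L)) (ha : a ∈ sh N γ b) :
    (∃ b' a', Pth N (γ \ C) a₀ ((b', a') :: (b, a) :: L) ∧ a' ∈ sh N γ b') ∨
      k ≤ 2 * (γ \ C).card + 2 := by
  have hlen := Pth_len hP
  rw [List.length_cons] at hlen
  obtain ⟨ha1, b', hb', hbb, hab'⟩ := Finset.mem_filter.1 ha
  by_cases hbC : b' ∈ C
  · right
    have h1 := close_cyc hN hγ hCγ hC hg hb₀ ha₀ hP hbC hab'
    omega
  have hb'' : b' ∈ γ \ C := Finset.mem_sdiff.2 ⟨hb', hbC⟩
  by_cases hbL : b' ∈ Bs ((b, a) :: L)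
  · right
    have hbL' : b' ∈ Bs L := by
      rcases mem_Bs_cons.1 hbL with h | h
      · exact absurd h hbb
      · exact h
    obtain ⟨L₁, a'', L₂, rfl⟩ := Bs_split hbL'
    have hP1 : Pth N γ a₀ (((b, a) :: L₁) ++ (b', a'') :: L₂) :=
      Pth_mono Finset.sdiff_subset hP
    have h1 := pth_close' hN hγ hC.1 hg hP1 (by simp) hb' (Pth_notMem hP1) hab'
      (by
        have h2 : Pth N γ a₀ (L₁ ++ (b', a'') :: L₂) := hP1.1
        have h3 : ∀ L₁ : List (V × V), Pth N γ a₀ (L₁ ++ (b', a'') :: L₂) → a'' ∈ N b' := by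
          intro L₁
          induction L₁ with
          | nil => intro h; exact h.2.2.2.2.1
          | cons p L₁ ih => intro h; exact ih h.1
        exact h3 L₁ h2)
    simp only [List.length_cons, List.length_append] at h1 hlen
    omega
  · left
    obtain ⟨a', ha', hne⟩ := Finset.exists_mem_ne (ht b' hb') a
    exact ⟨b', a', ⟨hP, hb'', hbL, hab', (Finset.mem_filter.1 ha').1, hne⟩, ha'⟩

/-- the longest path outside the cycle closes -/
lemma core_ind {N : V → Finset V} {B γ C : Finset V} {D : ℕ} (hN : Bip N B D) (hγ : γ ⊆ B)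
    (ht : Thick N γ) {k : ℕ} (hCγ : C ⊆ γ) (hC : CycP N C k) (hg : GC N γ k) {a₀ b₀ : V}
    (hb₀ : b₀ ∈ C) (ha₀ : a₀ ∈ N b₀) :
    ∀ n : ℕ, ∀ (b a : V) (L : List (V × V)), Pth N (γ \ C) a₀ ((b, a) :: L) → a ∈ sh N γ b →
      (γ \ C).card ≤ L.length + 1 + n → k ≤ 2 * (γ \ C).card + 2 := by
  intro n
  induction n with
  | zero =>
    intro b a L hP ha hn
    rcases core_step hN hγ ht hCγ hC hg hb₀ ha₀ hP ha with ⟨b', a', h1, -⟩ | h
    · have h2 := Pth_len h1
      simp only [List.length_cons] at h2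
      omega
    · exact h
  | succ n ih =>
    intro b a L hP ha hn
    rcases core_step hN hγ ht hCγ hC hg hb₀ ha₀ hP ha with ⟨b', a', h1, h2⟩ | h
    · exact ih b' a' _ h1 h2 (by rw [List.length_cons]; omega)
    · exact h

/-- some vertex outside `C` shares a neighbour with a vertex of `C` -/
lemma exit {N : V → Finset V} {γ C : Finset V} (hc : Cn (BG N) γ) (hCγ : C ⊆ γ)
    (hCn : C.Nonempty) (hne : C ≠ γ) :
    ∃ b₀ ∈ C, ∃ b₁ ∈ γ \ C, (N b₀ ∩ N b₁).Nonempty := by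
  obtain ⟨u, hu⟩ := hCn
  obtain ⟨v, hv, hvC⟩ := Finset.exists_of_ssubset (hCγ.ssubset_of_ne hne)
  obtain ⟨p⟩ := hc.2 u (hCγ hu) v hv
  obtain ⟨d, -, h1, h2⟩ := p.exists_boundary_dart (C : Set V) hu hvC
  have h3 : (BG N).Adj d.fst d.snd ∧ d.fst ∈ γ ∧ d.snd ∈ γ := d.adj
  obtain ⟨h4, h5, h6⟩ := h3
  have h7 := (SimpleGraph.fromRel_adj _ _ _).1 h4
  refine ⟨d.fst, h1, d.snd, Finset.mem_sdiff.2 ⟨h6, h2⟩, ?_⟩
  rcases h7.2 with h | h
  · exact h
  · rw [Finset.inter_comm]; exact h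

/-- M3b, sharp form -/
theorem cyc_extra' {N : V → Finset V} {B γ C : Finset V} {D : ℕ} (hN : Bip N B D) (hγ : γ ⊆ B)
    (hc : Cn (BG N) γ) (ht : Thick N γ) {k : ℕ} (hCγ : C ⊆ γ) (hC : CycP N C k) (hg : GC N γ k)
    (hne : C ≠ γ) : k ≤ 2 * (γ.card - C.card) + 2 := by
  have hCn : C.Nonempty := by
    rw [← Finset.card_pos, hC.2.1]
    have := hC.1
    omega
  obtain ⟨b₀, hb₀, b₁, hb₁, a₀, ha₀⟩ := exit hc hCγ hCn hne
  obtain ⟨h1, h2⟩ := Finset.mem_inter.1 ha₀
  obtain ⟨a₁, ha₁, hne₁⟩ := Finset.exists_mem_ne (ht b₁ (Finset.mem_sdiff.1 hb₁).1) a₀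
  have hP : Pth N (γ \ C) a₀ [(b₁, a₁)] :=
    ⟨trivial, hb₁, by simp [Bs], h2, (Finset.mem_filter.1 ha₁).1, hne₁⟩
  have h3 := core_ind hN hγ ht hCγ hC hg hb₀ h1 (γ \ C).card b₁ a₁ [] hP ha₁ (by simp)
  rw [Finset.card_sdiff_of_subset hCγ] at h3
  exact h3

end H322

variable {V : Type*} [Fintype V] [DecidableEq V]

/-- M3b: a thick connected set larger than a shortest cycle of length `2 k` has at least `k / 4`
vertices outside the cycle -/
theorem cyc_extra {N : V → Finset V} {B γ C : Finset V} {D : ℕ} (hN : Bip N B D) (hγ : γ ⊆ B)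
    (hc : Cn (BG N) γ) (ht : Thick N γ) {k : ℕ} (hCγ : C ⊆ γ) (hC : CycP N C k) (hg : GC N γ k)
    (hne : C ≠ γ) : k ≤ 4 * (γ.card - C.card) := by
  have h1 := H322.cyc_extra' hN hγ hc ht hCγ hC hg hne
  have h2 := Finset.card_lt_card (hCγ.ssubset_of_ne hne)
  omega

end Vale.Agent.P050.Dense
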