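import Vale.Agent.P050.R2.H322.TwoC
import Vale.Agent.P050.R2.H146.Cyc
import Vale.Agent.P050.R2.H15.Cyc

set_option linter.all false

/-!
Dense targets, phase 2: polymers which contain a cycle of length `4`, final form with cycle
polymers.
-/

open MeasureTheory Finset

namespace Vale.Agent.P050.Dense

open Vale.Agent.P050 H322 M6

section

variable {V : Type*} [Fintype V] [DecidableEq V]

theorem H322.sh_pair (N : V → Finset V) {b b' : V} (hne : b ≠ b') : sh N {b, b'} b = N b ∩ N b' := by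
  ext a
  unfold sh
  rw [Finset.mem_filter, Finset.mem_inter]
  constructor
  · rintro ⟨h1, c, h2, h3, h4⟩
    rw [Finset.mem_insert, Finset.mem_singleton] at h2
    rcases h2 with rfl | rfl
    · exact absurd rfl h3
    · exact ⟨h1, h4⟩
  · rintro ⟨h1, h2⟩
    exact ⟨h1, b', by simp, hne.symm, h2⟩

/-- two vertices with two common neighbours form a cycle polymer -/
theorem H322.cycP_pair {N : V → Finset V} {B : Finset V} {D : ℕ} (hN : Bip N B D) {b b' : V}
    (hb : b ∈ B) (hb' : b' ∈ B) (hne : b ≠ b') (h : 2 ≤ (N b ∩ N b').card) :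
    CycP N {b, b'} 2 := by
  have hsub : ({b, b'} : Finset V) ⊆ B := by
    intro x hx
    rw [Finset.mem_insert, Finset.mem_singleton] at hx
    rcases hx with rfl | rfl
    · exact hb
    · exact hb'
  have hthick : Thick N {b, b'} := by
    intro x hx
    rw [Finset.mem_insert, Finset.mem_singleton] at hx
    rcases hx with rfl | rfl
    · rw [H322.sh_pair N hne]; exact h
    · rw [Finset.pair_comm, H322.sh_pair N hne.symm, Finset.inter_comm]; exact h
  have hnac : ¬ (HG N {b, b'}).IsAcyclic := hthick.not_acyclic hN hsub ⟨b, by simp⟩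
  obtain ⟨k, C, hC, hCyc, hg⟩ := exists_cycP hN hsub hnac
  have h2 : ({b, b'} : Finset V).card = 2 := Finset.card_pair hne
  have hCc : C.card = k := hCyc.2.1
  have hk : 2 ≤ k := hCyc.1
  have hle : C.card ≤ 2 := by
    rw [← h2]; exact Finset.card_le_card hC
  have hk2 : k = 2 := by omega
  have hCe : C = {b, b'} := Finset.eq_of_subset_of_card_le hC (by omega)
  rw [hk2, hCe] at hCyc
  exact hCyc

/-- the cycle polymers with two vertices -/
theorem H322.pair_of_cycP {N : V → Finset V} {B C : Finset V} {D : ℕ} (hN : Bip N B D) (hC : C ⊆ B)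
    (h : CycP N C 2) :
    ∃ b b', b ≠ b' ∧ C = {b, b'} ∧ 2 ≤ (N b ∩ N b').card := by
  obtain ⟨b, b', hne, rfl⟩ := Finset.card_eq_two.1 h.2.1
  refine ⟨b, b', hne, rfl, ?_⟩
  have h1 := (cyc_struct hN hC h).1 b (by simp)
  rwa [H322.sh_pair N hne] at h1

end

section

variable {V : Type*} [Fintype V] [DecidableEq V] {Ω : Type*} [MeasurableSpace Ω]
variable (μ : Measure Ω) [IsProbabilityMeasure μ] {U : Sym2 Ω → ℝ} {κ η : ℝ}

/-- **polymers with a cycle of length `4`** -/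
theorem phi_two_cyc {N : V → Finset V} {B γ : Finset V} {D : ℕ} (hN : Bip N B D)
    (hU : Ker μ U κ η) {σ : ℝ} (hn : Num D κ η σ) (hγ : γ ⊆ B) {C₀ : Finset V} (hC₀ : C₀ ⊆ γ)
    (hC : CycP N C₀ 2) :
    ∃ C, C ⊆ γ ∧ CycP N C 2 ∧
      |phi μ U N γ| ≤ 8 * γ.card ^ 2 * σ ^ (γ.card - 2) * phi μ U N C := by
  obtain ⟨b, b', hne, rfl, h2⟩ := H322.pair_of_cycP hN (hC₀.trans hγ) hC
  obtain ⟨c, hc, c', hc', hcc, h3, h4⟩ := phi_two_gain μ hN hU hn hγ
    ⟨b, hC₀ (by simp), b', hC₀ (by simp), hne, h2⟩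
  refine ⟨{c, c'}, ?_, H322.cycP_pair hN (hγ hc) (hγ hc') hcc h3, h4⟩
  intro x hx
  rw [Finset.mem_insert, Finset.mem_singleton] at hx
  rcases hx with rfl | rfl
  · exact hc
  · exact hc'

/-- **polymers with a cycle of length `4` and a marked vertex** -/
theorem phig_two_cyc {N : V → Finset V} {B γ : Finset V} {D : ℕ} (hN : Bip N B D)
    (hU : Ker μ U κ η) {σ : ℝ} (hn : Num D κ η σ) (hγ : γ ⊆ B) {C₀ : Finset V} (hC₀ : C₀ ⊆ γ)
    (hC : CycP N C₀ 2) {g : Ω → ℝ} (hgm : BM g) (hg0 : ∫ s, g s ∂μ = 0) {a : V} (ha : a ∉ B) :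
    ∃ C, C ⊆ γ ∧ CycP N C 2 ∧
      |phig μ U N g a γ| ≤ 8 * γ.card ^ 2 * κ * σ ^ (γ.card - 2) *
        Real.sqrt (phi μ U N C) * Real.sqrt (∫ s, g s ^ 2 ∂μ) := by
  obtain ⟨b, b', hne, rfl, h2⟩ := H322.pair_of_cycP hN (hC₀.trans hγ) hC
  obtain ⟨c, hc, c', hc', hcc, h3, h4⟩ := phig_two_gain μ hN hU hn hγ
    ⟨b, hC₀ (by simp), b', hC₀ (by simp), hne, h2⟩ hgm hg0 ha
  refine ⟨{c, c'}, ?_, H322.cycP_pair hN (hγ hc) (hγ hc') hcc h3, h4⟩
  intro x hx
  rw [Finset.mem_insert, Finset.mem_singleton] at hx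
  rcases hx with rfl | rfl
  · exact hc
  · exact hc'

end

end Vale.Agent.P050.Dense
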