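import Vale.Agent.P050.R2.H300.Basic

set_option linter.all false

/-!
Dense targets, phase 2: polymers which contain a cycle of length `4`.
The exact second moments of the functions `Phi` and the bound of the activity by the activity of
the best pair.
-/

open MeasureTheory Finset

namespace Vale.Agent.P050.Dense

open Vale.Agent.P050

namespace H322

section kernel

variable {Ω : Type*} [MeasurableSpace Ω] (μ : Measure Ω) [IsProbabilityMeasure μ]
variable {U : Sym2 Ω → ℝ} {κ η : ℝ}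

/-- the second iterate of the kernel -/
noncomputable def K2 (U : Sym2 Ω → ℝ) (y y' : Ω) : ℝ := ∫ s, two U s y * two U s y' ∂μ

lemma bm_K2 (hU : Good U 1) : BM (fun p : Ω × Ω => K2 μ U p.1 p.2) := by
  have h : BM (fun q : (Ω × Ω) × Ω => two U q.2 q.1.1 * two U q.2 q.1.2) :=
    (hU.bm_two.comp (g := fun q : (Ω × Ω) × Ω => (q.2, q.1.1)) (by fun_prop)).mul
      (hU.bm_two.comp (g := fun q : (Ω × Ω) × Ω => (q.2, q.1.2)) (by fun_prop))
  exact h.integral_right μ

lemma ck_two (U : Sym2 Ω → ℝ) : ck μ U 2 = ∫ y, ∫ y', K2 μ U y y' ^ 2 ∂μ ∂μ := by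
  unfold ck
  congr 1
  ext y
  congr 1
  ext y'
  congr 1
  simp only [K2, kern, Nat.reduceSub, List.replicate_one, mul_one]
  congr 1
  ext s
  rw [two_symm U y s]

lemma abs_K2_le (hU : Ker μ U κ η) (y y' : Ω) : |K2 μ U y y'| ≤ κ := by
  unfold K2
  have hb : BM (fun s : Ω => |two U s y|) :=
    (hU.good.bm_two.comp (g := fun s : Ω => (s, y)) (by fun_prop)).abs
  have hb2 : BM (fun s : Ω => two U s y * two U s y') :=
    (hU.good.bm_two.comp (g := fun s : Ω => (s, y)) (by fun_prop)).mul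
      (hU.good.bm_two.comp (g := fun s : Ω => (s, y')) (by fun_prop))
  calc |∫ s, two U s y * two U s y' ∂μ| ≤ ∫ s, |two U s y * two U s y'| ∂μ :=
        abs_integral_le_integral_abs
    _ ≤ ∫ s, |two U s y| ∂μ := by
        apply integral_mono (hb2.abs.integrable _) (hb.integrable _)
        intro s
        show |two U s y * two U s y'| ≤ |two U s y|
        rw [abs_mul]
        have h1 : |two U s y'| ≤ 1 := hU.good.bdd _
        nlinarith [abs_nonneg (two U s y)]
    _ = ∫ s, |two U y s| ∂μ := by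
        congr 1
        ext s
        rw [two_symm]
    _ ≤ κ := hU.l1 y

lemma int_K2 (hU : Ker μ U κ η) (y : Ω) : ∫ y', K2 μ U y y' ∂μ = 0 := by
  unfold K2
  have hb : BM (fun q : Ω × Ω => two U q.2 y * two U q.2 q.1) :=
    (hU.good.bm_two.comp (g := fun q : Ω × Ω => (q.2, y)) (by fun_prop)).mul
      (hU.good.bm_two.comp (g := fun q : Ω × Ω => (q.2, q.1)) (by fun_prop))
  rw [integral_integral_swap (hb.integrable _)]
  have h : ∀ s, ∫ y', two U s y * two U s y' ∂μ = 0 := by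
    intro s
    rw [integral_const_mul, hU.zero s, mul_zero]
  simp only [h, integral_zero]

end kernel

/-! ### scalar inequalities -/

lemma pow_upper {x : ℝ} {m : ℕ} (hx : -1 ≤ x) (hm : m * |x| ≤ 1) :
    (1 + x) ^ m - 1 - m * x ≤ m ^ 2 * x ^ 2 := by
  have h1 : (1 + x) ^ m ≤ Real.exp (m * x) := by
    rw [Real.exp_nat_mul]
    apply pow_le_pow_left₀ (by linarith)
    linarith [Real.add_one_le_exp x]
  have h2 : |(m:ℝ) * x| ≤ 1 := by
    rw [abs_mul, Nat.abs_cast]; exact hm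
  have h3 := (abs_le.1 (Real.abs_exp_sub_one_sub_id_le h2)).2
  nlinarith

lemma pow_lower {x : ℝ} (hx : -1 ≤ x) : ∀ {m : ℕ}, m * |x| ≤ 1 →
    (m * (m - 1) / 4 : ℝ) * x ^ 2 ≤ (1 + x) ^ m - 1 - m * x
  | 0, _ => by simp
  | m + 1, hm => by
    have hm' : (m:ℝ) * |x| ≤ 1 := by
      have := abs_nonneg x
      push_cast at hm
      nlinarith
    have ih := pow_lower hx hm'
    have h0 : 0 ≤ 1 + x := by linarith
    have h1 : (1 + x) * (1 + m * x + (m * (m - 1) / 4 : ℝ) * x ^ 2) ≤ (1 + x) ^ (m + 1) := by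
      rw [pow_succ (1 + x) m, mul_comm ((1 + x) ^ m)]
      apply mul_le_mul_of_nonneg_left _ h0
      linarith
    have h2 : -1 ≤ (m:ℝ) * x := by
      have h3 : |(m:ℝ) * x| ≤ 1 := by rw [abs_mul, Nat.abs_cast]; exact hm'
      exact (abs_le.1 h3).1
    push_cast
    have hm0 : (0:ℝ) ≤ m := Nat.cast_nonneg m
    rcases Nat.eq_zero_or_pos m with h | h
    · subst h
      push_cast at h1 ⊢
      nlinarith [sq_nonneg x]
    · have hm1 : (1:ℝ) ≤ m := by exact_mod_cast h
      have h4 : 0 ≤ x ^ 2 * (m - 1) * (1 + m * x) := by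
        apply mul_nonneg (mul_nonneg (sq_nonneg x) (by linarith)) (by linarith)
      nlinarith [sq_nonneg x, mul_nonneg (sq_nonneg x) hm0]

section moments

variable {Ω : Type*} [MeasurableSpace Ω] (μ : Measure Ω) [IsProbabilityMeasure μ]
variable {U : Sym2 Ω → ℝ} {κ η : ℝ}

/-- the moment attached to `m` common neighbours -/
noncomputable def Mm (U : Sym2 Ω → ℝ) (m : ℕ) : ℝ :=
  ∫ y, ∫ y', ((1 + K2 μ U y y') ^ m - 1) ∂μ ∂μ

lemma bm_pow (hU : Good U 1) (m : ℕ) :
    BM (fun p : Ω × Ω => (1 + K2 μ U p.1 p.2) ^ m - 1) :=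
  (((BM.const 1).add (bm_K2 μ hU)).pow m).sub (BM.const 1)

lemma Mm_eq (hU : Ker μ U κ η) (m : ℕ) :
    Mm μ U m = ∫ y, ∫ y', ((1 + K2 μ U y y') ^ m - 1 - m * K2 μ U y y') ∂μ ∂μ := by
  unfold Mm
  congr 1
  ext y
  have h1 : BM (fun y' : Ω => (1 + K2 μ U y y') ^ m - 1) :=
    (bm_pow μ hU.good m).comp (g := fun y' : Ω => (y, y')) (by fun_prop)
  have h2 : BM (fun y' : Ω => (m:ℝ) * K2 μ U y y') :=
    (BM.const (m:ℝ)).mul ((bm_K2 μ hU.good).comp (g := fun y' : Ω => (y, y')) (by fun_prop))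
  rw [integral_sub (h1.integrable _) (h2.integrable _), integral_const_mul, int_K2 μ hU y,
    mul_zero, sub_zero]

lemma bm_K2sq (hU : Good U 1) : BM (fun p : Ω × Ω => K2 μ U p.1 p.2 ^ 2) := (bm_K2 μ hU).pow 2

lemma int_mono2 {f g : Ω → Ω → ℝ} (hf : BM (fun p : Ω × Ω => f p.1 p.2))
    (hg : BM (fun p : Ω × Ω => g p.1 p.2)) (h : ∀ y y', f y y' ≤ g y y') :
    ∫ y, ∫ y', f y y' ∂μ ∂μ ≤ ∫ y, ∫ y', g y y' ∂μ ∂μ := by
  apply integral_mono ((hf.integral_right μ).integrable _) ((hg.integral_right μ).integrable _)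
  intro y
  apply integral_mono ((hf.comp (g := fun y' : Ω => (y, y')) (by fun_prop)).integrable _)
    ((hg.comp (g := fun y' : Ω => (y, y')) (by fun_prop)).integrable _)
  intro y'
  exact h y y'

lemma Mm_le (hU : Ker μ U κ η) (hκ : κ ≤ 1) {m : ℕ} (hm : m * κ ≤ 1) :
    Mm μ U m ≤ m ^ 2 * ck μ U 2 := by
  rw [Mm_eq μ hU, ck_two, ← integral_const_mul]
  simp only [← integral_const_mul]
  apply int_mono2 μ
  · exact (bm_pow μ hU.good m).sub ((BM.const (m:ℝ)).mul (bm_K2 μ hU.good))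
  · exact (BM.const ((m:ℝ) ^ 2)).mul (bm_K2sq μ hU.good)
  · intro y y'
    have h1 := abs_K2_le μ hU y y'
    apply pow_upper
    · linarith [(abs_le.1 h1).1]
    · exact (mul_le_mul_of_nonneg_left h1 (Nat.cast_nonneg m)).trans hm

lemma le_Mm (hU : Ker μ U κ η) (hκ : κ ≤ 1) {m : ℕ} (hm : m * κ ≤ 1) :
    (m * (m - 1) / 4 : ℝ) * ck μ U 2 ≤ Mm μ U m := by
  rw [Mm_eq μ hU, ck_two, ← integral_const_mul]
  simp only [← integral_const_mul]
  apply int_mono2 μ
  · exact (BM.const (m * (m - 1) / 4 : ℝ)).mul (bm_K2sq μ hU.good)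
  · exact (bm_pow μ hU.good m).sub ((BM.const (m:ℝ)).mul (bm_K2 μ hU.good))
  · intro y y'
    have h1 := abs_K2_le μ hU y y'
    apply pow_lower
    · linarith [(abs_le.1 h1).1]
    · exact (mul_le_mul_of_nonneg_left h1 (Nat.cast_nonneg m)).trans hm

variable {V : Type*} [Fintype V] [DecidableEq V]

/-- two products of factors at the points `y`, `y'` -/
lemma int_prod2 (hU : Ker μ U κ η) (S S' : Finset V) (y y' : Ω) :
    ∫ z, (∏ a ∈ S, (1 + U s(z a, y))) * (∏ a ∈ S', (1 + U s(z a, y'))) ∂(piM V μ) =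
      (1 + K2 μ U y y') ^ (S ∩ S').card := by
  have e : ∀ z : V → Ω, (∏ a ∈ S, (1 + U s(z a, y))) * (∏ a ∈ S', (1 + U s(z a, y'))) =
      ∏ a : V, ((if a ∈ S then 1 + U s(z a, y) else 1) *
        (if a ∈ S' then 1 + U s(z a, y') else 1)) := by
    intro z
    rw [Finset.prod_mul_distrib, Finset.prod_ite_mem, Finset.prod_ite_mem, Finset.univ_inter,
      Finset.univ_inter]
  simp only [e]
  rw [integral_fintype_prod_eq_prod (μ := fun _ : V => μ)
    (fun (a : V) (t : Ω) => (if a ∈ S then 1 + U s(t, y) else 1) *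
        (if a ∈ S' then 1 + U s(t, y') else 1))]
  have hb : ∀ y, BM (fun t : Ω => U s(t, y)) := fun y =>
    hU.good.bm_two.comp (g := fun t : Ω => (t, y)) (by fun_prop)
  have hz : ∀ y, ∫ t, U s(t, y) ∂μ = 0 := by
    intro y
    have := hU.zero y
    rw [← this]
    congr 1
    ext t
    rw [Sym2.eq_swap]
    rfl
  have h1 : ∀ y, ∫ t, (1 + U s(t, y)) ∂μ = 1 := by
    intro y
    rw [integral_add ((BM.const (X := Ω) 1).integrable _) ((hb y).integrable _), hz]
    simp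
  have h2 : ∫ t, (1 + U s(t, y)) * (1 + U s(t, y')) ∂μ = 1 + K2 μ U y y' := by
    have e2 : ∀ t, (1 + U s(t, y)) * (1 + U s(t, y')) =
        1 + U s(t, y) + U s(t, y') + U s(t, y) * U s(t, y') := fun t => by ring
    simp only [e2]
    rw [integral_add ((((BM.const (X := Ω) 1).add (hb y)).add (hb y')).integrable _)
      (((hb y).mul (hb y')).integrable _),
      integral_add (((BM.const (X := Ω) 1).add (hb y)).integrable _) ((hb y').integrable _),
      integral_add ((BM.const (X := Ω) 1).integrable _) ((hb y).integrable _), hz, hz]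
    simp [K2, two]
  have h3 : ∀ a : V, ∫ t, (if a ∈ S then 1 + U s(t, y) else 1) *
      (if a ∈ S' then 1 + U s(t, y') else 1) ∂μ = if a ∈ S ∩ S' then 1 + K2 μ U y y' else 1 := by
    intro a
    by_cases ha : a ∈ S <;> by_cases ha' : a ∈ S'
    · simp only [ha, ha', if_true, Finset.mem_inter, and_self, h2]
    · simp only [ha, ha', if_true, if_false, Finset.mem_inter, and_false, mul_one, h1]
    · simp only [ha, ha', if_true, if_false, Finset.mem_inter, false_and, one_mul, h1]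
    · simp [ha, ha']
  simp only [h3]
  rw [Finset.prod_ite_mem, Finset.univ_inter, Finset.prod_const]

/-- the scalar products of the functions `Phi` -/
theorem int_Phi_Phi (hU : Ker μ U κ η) (N : V → Finset V) (S S' : Finset V) (b b' : V) :
    ∫ z, Phi μ U N S b z * Phi μ U N S' b' z ∂(piM V μ) =
      Mm μ U ((N b \ S) ∩ (N b' \ S')).card := by
  set T := N b \ S with hT
  set T' := N b' \ S' with hT'
  have hg := hU.good
  have e1 : ∀ z : V → Ω, Phi μ U N S b z * Phi μ U N S' b' z =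
      ∫ y, ∫ y', ((∏ a ∈ T, (1 + U s(z a, y))) - 1) *
        ((∏ a ∈ T', (1 + U s(z a, y'))) - 1) ∂μ ∂μ := by
    intro z
    unfold Phi
    rw [← hT, ← hT']
    simp only [integral_const_mul, integral_mul_const]
  simp only [e1]
  have b1 : BM (fun q : (V → Ω) × Ω => (∏ a ∈ T, (1 + U s(q.1 a, q.2))) - 1) :=
    (bm_prod hg T).sub (BM.const 1)
  have b2 : BM (fun q : (V → Ω) × Ω => (∏ a ∈ T', (1 + U s(q.1 a, q.2))) - 1) :=
    (bm_prod hg T').sub (BM.const 1)
  have b3 : BM (fun q : ((V → Ω) × Ω) × Ω => ((∏ a ∈ T, (1 + U s(q.1.1 a, q.1.2))) - 1) *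
      ((∏ a ∈ T', (1 + U s(q.1.1 a, q.2))) - 1)) :=
    (b1.comp (g := fun q : ((V → Ω) × Ω) × Ω => (q.1.1, q.1.2)) (by fun_prop)).mul
      (b2.comp (g := fun q : ((V → Ω) × Ω) × Ω => (q.1.1, q.2)) (by fun_prop))
  rw [integral_integral_swap (f := fun (z : V → Ω) (y : Ω) =>
    ∫ y', ((∏ a ∈ T, (1 + U s(z a, y))) - 1) * ((∏ a ∈ T', (1 + U s(z a, y'))) - 1) ∂μ)
    ((b3.integral_right μ).integrable _)]
  unfold Mm
  congr 1
  ext y
  have b4 : BM (fun q : (V → Ω) × Ω => ((∏ a ∈ T, (1 + U s(q.1 a, y))) - 1) *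
      ((∏ a ∈ T', (1 + U s(q.1 a, q.2))) - 1)) :=
    b3.comp (g := fun q : (V → Ω) × Ω => ((q.1, y), q.2)) (by fun_prop)
  rw [integral_integral_swap (f := fun (z : V → Ω) (y' : Ω) =>
    ((∏ a ∈ T, (1 + U s(z a, y))) - 1) * ((∏ a ∈ T', (1 + U s(z a, y'))) - 1))
    (b4.integrable _)]
  congr 1
  ext y'
  have p1 : BM (fun z : V → Ω => ∏ a ∈ T, (1 + U s(z a, y))) :=
    (bm_prod hg T).comp (g := fun z : V → Ω => (z, y)) (by fun_prop)
  have p2 : BM (fun z : V → Ω => ∏ a ∈ T', (1 + U s(z a, y'))) :=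
    (bm_prod hg T').comp (g := fun z : V → Ω => (z, y')) (by fun_prop)
  have e2 : ∀ z : V → Ω, ((∏ a ∈ T, (1 + U s(z a, y))) - 1) * ((∏ a ∈ T', (1 + U s(z a, y'))) - 1)
      = (∏ a ∈ T, (1 + U s(z a, y))) * (∏ a ∈ T', (1 + U s(z a, y'))) -
        (∏ a ∈ T, (1 + U s(z a, y))) - (∏ a ∈ T', (1 + U s(z a, y'))) + 1 := fun z => by ring
  simp only [e2]
  rw [integral_add ((((p1.mul p2).sub p1).sub p2).integrable _)
      ((BM.const (X := V → Ω) 1).integrable _),
    integral_sub (((p1.mul p2).sub p1).integrable _) (p2.integrable _),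
    integral_sub ((p1.mul p2).integrable _) (p1.integrable _), int_prod2 μ hU]
  have h1 : ∫ z, ∏ a ∈ T, (1 + U s(z a, y)) ∂(piM V μ) = 1 := by
    have := int_prod2 μ hU T ∅ y y
    simpa using this
  have h2 : ∫ z, ∏ a ∈ T', (1 + U s(z a, y')) ∂(piM V μ) = 1 := by
    have := int_prod2 μ hU T' ∅ y' y'
    simpa using this
  rw [h1, h2]
  simp

end moments

end H322

end Vale.Agent.P050.Dense
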