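import Vale.Agent.P050.R2.H322.Two
import Vale.Agent.P050.R2.H146.Exact

set_option linter.all false

/-!
Dense targets, phase 2: polymers which contain a cycle of length `4`: exact activity of a pair and
the bound of an activity by the activity of the best pair.
-/

open MeasureTheory Finset

namespace Vale.Agent.P050.Dense

open Vale.Agent.P050 H322 M6

section

variable {V : Type*} [Fintype V] [DecidableEq V] {Ω : Type*} [MeasurableSpace Ω]
variable (μ : Measure Ω) [IsProbabilityMeasure μ] {U : Sym2 Ω → ℝ} {κ η : ℝ}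

/-- the activity of a pair -/
theorem phi_pair (hU : Ker μ U κ η) (N : V → Finset V) {b b' : V} (hbb : b ≠ b') :
    phi μ U N {b, b'} = Mm μ U (N b ∩ N b').card := by
  unfold phi
  have h := int_Phi_Phi μ hU N ∅ ∅ b b'
  rw [Finset.sdiff_empty, Finset.sdiff_empty] at h
  rw [← h]
  congr 1
  ext z
  rw [Finset.prod_pair hbb]

theorem Num.κ1 {D : ℕ} {σ : ℝ} (hn : Num D κ η σ) (hκ : 0 ≤ κ) : D * κ ≤ 1 ∧ κ ≤ 1 := by
  have h1 := hn.σκ
  have h2 := hn.σ1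
  have h3 : (1:ℝ) ≤ D := by exact_mod_cast hn.hD
  constructor <;> nlinarith

/-- lower bound of the activity of a pair -/
theorem phi_pair_ge {N : V → Finset V} {B : Finset V} {D : ℕ} (hN : Bip N B D)
    (hU : Ker μ U κ η) {σ : ℝ} (hn : Num D κ η σ) {b b' : V} (hb : b ∈ B) (hbb : b ≠ b') :
    ((N b ∩ N b').card * ((N b ∩ N b').card - 1) / 4 : ℝ) * ck μ U 2 ≤ phi μ U N {b, b'} := by
  rw [phi_pair μ hU N hbb]
  obtain ⟨h1, h2⟩ := hn.κ1 hU.κ0
  apply le_Mm μ hU h2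
  have h3 : ((N b ∩ N b').card : ℝ) ≤ D := by
    exact_mod_cast (Finset.card_le_card Finset.inter_subset_left).trans (hN.dB b hb)
  exact (mul_le_mul_of_nonneg_right h3 hU.κ0).trans h1

theorem phi_pair_nonneg {N : V → Finset V} {B : Finset V} {D : ℕ} (hN : Bip N B D)
    (hU : Ker μ U κ η) {σ : ℝ} (hn : Num D κ η σ) {b b' : V} (hb : b ∈ B) (hbb : b ≠ b') :
    0 ≤ phi μ U N {b, b'} := by
  refine le_trans (mul_nonneg ?_ (ck_nonneg μ 2)) (phi_pair_ge μ hN hU hn hb hbb)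
  rcases Nat.eq_zero_or_pos (N b ∩ N b').card with h | h
  · rw [h]; simp
  · have : (1:ℝ) ≤ ((N b ∩ N b').card : ℝ) := by exact_mod_cast h
    have h0 : (0:ℝ) ≤ ((N b ∩ N b').card : ℝ) := by linarith
    have h1 : (0:ℝ) ≤ ((N b ∩ N b').card : ℝ) - 1 := by linarith
    positivity

/-- second moment of `Phi` restricted to `s` neighbours -/
theorem int_Phi_sq_le {N : V → Finset V} {B : Finset V} {D : ℕ} (hN : Bip N B D)
    (hU : Ker μ U κ η) {σ : ℝ} (hn : Num D κ η σ) {b : V} (hb : b ∈ B) (S : Finset V) :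
    ∫ z, Phi μ U N S b z ^ 2 ∂(piM V μ) ≤ ((N b \ S).card : ℝ) ^ 2 * ck μ U 2 := by
  have h := int_Phi_Phi μ hU N S S b b
  rw [Finset.inter_self] at h
  have e : ∀ z : V → Ω, Phi μ U N S b z ^ 2 = Phi μ U N S b z * Phi μ U N S b z := fun z => sq _
  simp only [e]
  rw [h]
  obtain ⟨h1, h2⟩ := hn.κ1 hU.κ0
  apply Mm_le μ hU h2
  have h3 : ((N b \ S).card : ℝ) ≤ D := by
    exact_mod_cast (Finset.card_le_card Finset.sdiff_subset).trans (hN.dB b hb)
  exact (mul_le_mul_of_nonneg_right h3 hU.κ0).trans h1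

/-- product of two functions with second moments at most `s² c`, `t² c` -/
theorem int_abs_mul_le {f g : (V → Ω) → ℝ} (hf : BM f) (hg : BM g) {s t c : ℝ} (hs : 0 < s)
    (ht : 0 < t) (h1 : ∫ z, f z ^ 2 ∂(piM V μ) ≤ s ^ 2 * c)
    (h2 : ∫ z, g z ^ 2 ∂(piM V μ) ≤ t ^ 2 * c) :
    ∫ z, |f z| * |g z| ∂(piM V μ) ≤ s * t * c := by
  have h3 : ∫ z, |f z| * |g z| ∂(piM V μ) ≤
      ∫ z, (t / (2 * s) * f z ^ 2 + s / (2 * t) * g z ^ 2) ∂(piM V μ) := by
    apply integral_mono ((hf.abs.mul hg.abs).integrable _)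
      ((((BM.const _).mul (hf.pow 2)).add ((BM.const _).mul (hg.pow 2))).integrable _)
    intro z
    show |f z| * |g z| ≤ t / (2 * s) * f z ^ 2 + s / (2 * t) * g z ^ 2
    rw [← sq_abs (f z), ← sq_abs (g z)]
    have h4 : t / (2 * s) * |f z| ^ 2 + s / (2 * t) * |g z| ^ 2 - |f z| * |g z| =
        (t * |f z| - s * |g z|) ^ 2 / (2 * s * t) := by
      field_simp
      ring
    have h5 : 0 ≤ (t * |f z| - s * |g z|) ^ 2 / (2 * s * t) := by positivity
    linarith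
  rw [integral_add (((BM.const _).mul (hf.pow 2)).integrable _)
    (((BM.const _).mul (hg.pow 2)).integrable _), integral_const_mul, integral_const_mul] at h3
  have h6 : t / (2 * s) * ∫ z, f z ^ 2 ∂(piM V μ) ≤ t / (2 * s) * (s ^ 2 * c) :=
    mul_le_mul_of_nonneg_left h1 (by positivity)
  have h7 : s / (2 * t) * ∫ z, g z ^ 2 ∂(piM V μ) ≤ s / (2 * t) * (t ^ 2 * c) :=
    mul_le_mul_of_nonneg_left h2 (by positivity)
  have h8 : t / (2 * s) * (s ^ 2 * c) + s / (2 * t) * (t ^ 2 * c) = s * t * c := by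
    field_simp
    ring
  linarith

/-- the activity in terms of the shared neighbours of two vertices -/
theorem phi_two_bound {N : V → Finset V} {B γ : Finset V} {D : ℕ} (hN : Bip N B D)
    (hU : Ker μ U κ η) {σ : ℝ} (hn : Num D κ η σ) (hγ : γ ⊆ B) {b₁ b₂ : V} (h₁ : b₁ ∈ γ)
    (h₂ : b₂ ∈ γ) (hne : b₁ ≠ b₂) :
    |phi μ U N γ| ≤ σ ^ (γ.card - 2) * ((sh N γ b₁).card * (sh N γ b₂).card * ck μ U 2) := by
  rw [phi_sh μ hN hU hγ]
  set P : V → (V → Ω) → ℝ := fun b z => Phi μ U N (N b \ sh N γ b) b z with hP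
  have hbm : ∀ b, BM (P b) := fun b => bm_Phi μ hU.good N _ b
  have hm₂ : b₂ ∈ γ.erase b₁ := Finset.mem_erase.2 ⟨hne.symm, h₂⟩
  have e1 : ∀ z, ∏ b ∈ γ, P b z = P b₁ z * (P b₂ z * ∏ b ∈ (γ.erase b₁).erase b₂, P b z) := by
    intro z
    rw [Finset.mul_prod_erase _ (fun b => P b z) hm₂, Finset.mul_prod_erase _ (fun b => P b z) h₁]
  have hcard : ((γ.erase b₁).erase b₂).card = γ.card - 2 := by
    rw [Finset.card_erase_of_mem hm₂, Finset.card_erase_of_mem h₁]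
    omega
  have hprod : ∀ z, |∏ b ∈ (γ.erase b₁).erase b₂, P b z| ≤ σ ^ (γ.card - 2) := by
    intro z
    rw [Finset.abs_prod, ← hcard, ← Finset.prod_const]
    apply Finset.prod_le_prod (fun _ _ => abs_nonneg _)
    intro b hb
    exact abs_Phi_le μ hU hn hN (hγ (Finset.mem_of_mem_erase (Finset.mem_of_mem_erase hb))) _ z
  have hσ0 : 0 ≤ σ ^ (γ.card - 2) := pow_nonneg hn.σ0 _
  have h3 : |∫ z, ∏ b ∈ γ, P b z ∂(piM V μ)| ≤
      σ ^ (γ.card - 2) * ∫ z, |P b₁ z| * |P b₂ z| ∂(piM V μ) := by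
    refine abs_integral_le_integral_abs.trans ?_
    rw [← integral_const_mul]
    apply integral_mono
    · exact ((BM.finprod γ fun b _ => hbm b).abs).integrable _
    · exact ((BM.const _).mul ((hbm b₁).abs.mul (hbm b₂).abs)).integrable _
    intro z
    show |∏ b ∈ γ, P b z| ≤ σ ^ (γ.card - 2) * (|P b₁ z| * |P b₂ z|)
    rw [e1, abs_mul, abs_mul]
    calc |P b₁ z| * (|P b₂ z| * |∏ b ∈ (γ.erase b₁).erase b₂, P b z|) =
          |∏ b ∈ (γ.erase b₁).erase b₂, P b z| * (|P b₁ z| * |P b₂ z|) := by ring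
      _ ≤ _ := mul_le_mul_of_nonneg_right (hprod z) (by positivity)
  refine h3.trans (mul_le_mul_of_nonneg_left ?_ hσ0)
  have hz : ∀ b, (sh N γ b).card = 0 → ∀ z, P b z = 0 := by
    intro b hb z
    apply Phi_eq_zero μ hU
    rw [sdiff_sh]
    omega
  rcases Nat.eq_zero_or_pos (sh N γ b₁).card with hs | hs
  · have := hz b₁ hs
    simp [this, hs]
  rcases Nat.eq_zero_or_pos (sh N γ b₂).card with ht | ht
  · have := hz b₂ ht
    simp [this, ht]
  have q1 := int_Phi_sq_le μ hN hU hn (hγ h₁) (N b₁ \ sh N γ b₁)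
  have q2 := int_Phi_sq_le μ hN hU hn (hγ h₂) (N b₂ \ sh N γ b₂)
  rw [sdiff_sh] at q1 q2
  exact int_abs_mul_le μ (hbm b₁) (hbm b₂) (by exact_mod_cast hs) (by exact_mod_cast ht) q1 q2

/-- the number of shared neighbours in terms of the largest number of common neighbours -/
theorem card_sh_le {N : V → Finset V} {γ : Finset V} {M : ℕ}
    (hM : ∀ b ∈ γ, ∀ b' ∈ γ, b ≠ b' → (N b ∩ N b').card ≤ M) {b : V} (hb : b ∈ γ) :
    (sh N γ b).card ≤ γ.card * M := by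
  have h1 : sh N γ b ⊆ (γ.erase b).biUnion (fun b' => N b ∩ N b') := by
    intro a ha
    obtain ⟨h2, b', h3, h4, h5⟩ := Finset.mem_filter.1 ha
    rw [Finset.mem_biUnion]
    exact ⟨b', Finset.mem_erase.2 ⟨h4, h3⟩, Finset.mem_inter.2 ⟨h2, h5⟩⟩
  calc (sh N γ b).card ≤ ((γ.erase b).biUnion (fun b' => N b ∩ N b')).card :=
        Finset.card_le_card h1
    _ ≤ ∑ b' ∈ γ.erase b, (N b ∩ N b').card := Finset.card_biUnion_le
    _ ≤ ∑ _b' ∈ γ.erase b, M := by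
        apply Finset.sum_le_sum
        intro b' hb'
        obtain ⟨h2, h3⟩ := Finset.mem_erase.1 hb'
        exact hM b hb b' h3 h2.symm
    _ = (γ.erase b).card * M := by rw [Finset.sum_const, smul_eq_mul]
    _ ≤ γ.card * M := Nat.mul_le_mul_right _ (Finset.card_le_card (Finset.erase_subset _ _))

/-- **polymers with a cycle of length `4`**: the activity is at most the activity of the pair with
the largest number of common neighbours -/
theorem phi_two_gain {N : V → Finset V} {B γ : Finset V} {D : ℕ} (hN : Bip N B D)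
    (hU : Ker μ U κ η) {σ : ℝ} (hn : Num D κ η σ) (hγ : γ ⊆ B)
    (h4 : ∃ b ∈ γ, ∃ b' ∈ γ, b ≠ b' ∧ 2 ≤ (N b ∩ N b').card) :
    ∃ b ∈ γ, ∃ b' ∈ γ, b ≠ b' ∧ 2 ≤ (N b ∩ N b').card ∧
      |phi μ U N γ| ≤ 8 * γ.card ^ 2 * σ ^ (γ.card - 2) * phi μ U N {b, b'} := by
  obtain ⟨c, hc, c', hc', hcc, h2⟩ := h4
  have hne : (γ.offDiag).Nonempty := ⟨(c, c'), Finset.mem_offDiag.2 ⟨hc, hc', hcc⟩⟩
  obtain ⟨⟨b, b'⟩, hbb, hmax⟩ := Finset.exists_max_image γ.offDiag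
    (fun p => (N p.1 ∩ N p.2).card) hne
  obtain ⟨hb, hb', hbne⟩ := Finset.mem_offDiag.1 hbb
  simp only at hb hb' hbne
  set M := (N b ∩ N b').card with hMdef
  have hM2 : 2 ≤ M := h2.trans (hmax (c, c') (Finset.mem_offDiag.2 ⟨hc, hc', hcc⟩))
  refine ⟨b, hb, b', hb', hbne, hM2, ?_⟩
  have hM : ∀ b₁ ∈ γ, ∀ b₂ ∈ γ, b₁ ≠ b₂ → (N b₁ ∩ N b₂).card ≤ M := fun b₁ h₁ b₂ h₂ h =>
    hmax (b₁, b₂) (Finset.mem_offDiag.2 ⟨h₁, h₂, h⟩)
  have h3 := phi_two_bound μ hN hU hn hγ hb hb' hbne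
  have h5 : ((sh N γ b).card : ℝ) ≤ γ.card * M := by exact_mod_cast card_sh_le hM hb
  have h6 : ((sh N γ b').card : ℝ) ≤ γ.card * M := by exact_mod_cast card_sh_le hM hb'
  have hck := ck_nonneg μ (U := U) 2
  have h7 : ((sh N γ b).card : ℝ) * (sh N γ b').card ≤ (γ.card * M) * (γ.card * M) :=
    mul_le_mul h5 h6 (Nat.cast_nonneg _) (by positivity)
  have h8 := phi_pair_ge μ hN hU hn (hγ hb) hbne
  rw [← hMdef] at h8
  have hM2' : (2:ℝ) ≤ M := by exact_mod_cast hM2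
  have hσ0 : 0 ≤ σ ^ (γ.card - 2) := pow_nonneg hn.σ0 _
  have h9 : (M:ℝ) ^ 2 * ck μ U 2 ≤ 8 * phi μ U N {b, b'} := by
    have : (M:ℝ) ^ 2 ≤ 8 * (M * (M - 1) / 4) := by nlinarith
    calc (M:ℝ) ^ 2 * ck μ U 2 ≤ 8 * (M * (M - 1) / 4) * ck μ U 2 :=
          mul_le_mul_of_nonneg_right this hck
      _ = 8 * ((M * (M - 1) / 4 : ℝ) * ck μ U 2) := by ring
      _ ≤ 8 * phi μ U N {b, b'} := by linarith
  calc |phi μ U N γ| ≤ σ ^ (γ.card - 2) * ((sh N γ b).card * (sh N γ b').card * ck μ U 2) := h3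
    _ ≤ σ ^ (γ.card - 2) * ((γ.card * M) * (γ.card * M) * ck μ U 2) :=
        mul_le_mul_of_nonneg_left (mul_le_mul_of_nonneg_right h7 hck) hσ0
    _ = σ ^ (γ.card - 2) * ((γ.card:ℝ) ^ 2 * (M ^ 2 * ck μ U 2)) := by ring
    _ ≤ σ ^ (γ.card - 2) * ((γ.card:ℝ) ^ 2 * (8 * phi μ U N {b, b'})) :=
        mul_le_mul_of_nonneg_left (mul_le_mul_of_nonneg_left h9 (by positivity)) hσ0
    _ = 8 * γ.card ^ 2 * σ ^ (γ.card - 2) * phi μ U N {b, b'} := by ring

end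

end Vale.Agent.P050.Dense
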