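import Vale.Agent.P050.R2.H322.TwoB

set_option linter.all false

/-!
Dense targets, phase 2: polymers which contain a cycle of length `4` with a marked vertex.
-/

open MeasureTheory Finset

namespace Vale.Agent.P050.Dense

open Vale.Agent.P050 H322 M6

namespace H322

/-- telescoping of a product, pointwise -/
lemma abs_prod_sub_prod_le {ι : Type*} [DecidableEq ι] (s : Finset ι) (x y : ι → ℝ) :
    |∏ i ∈ s, x i - ∏ i ∈ s, y i| ≤
      ∑ i ∈ s, |x i - y i| * ∏ j ∈ s.erase i, max |x j| |y j| := by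
  induction s using Finset.induction_on with
  | empty => simp
  | insert c s hc ih =>
    rw [Finset.prod_insert hc, Finset.prod_insert hc, Finset.sum_insert hc,
      Finset.erase_insert hc]
    have h1 : x c * ∏ i ∈ s, x i - y c * ∏ i ∈ s, y i =
        (x c - y c) * ∏ i ∈ s, y i + x c * (∏ i ∈ s, x i - ∏ i ∈ s, y i) := by ring
    rw [h1]
    refine (abs_add_le _ _).trans (add_le_add ?_ ?_)
    · rw [abs_mul, Finset.abs_prod]
      exact mul_le_mul_of_nonneg_left (Finset.prod_le_prod (fun _ _ => abs_nonneg _)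
        fun _ _ => le_max_right _ _) (abs_nonneg _)
    · rw [abs_mul]
      refine (mul_le_mul (le_max_left |x c| |y c|) ih (abs_nonneg _)
        (le_max_of_le_left (abs_nonneg _))).trans (le_of_eq ?_)
      rw [Finset.mul_sum]
      refine Finset.sum_congr rfl fun i hi => ?_
      have hci : c ≠ i := by rintro rfl; exact hc hi
      rw [Finset.erase_insert_of_ne hci,
        Finset.prod_insert (fun h => hc (Finset.mem_of_mem_erase h))]
      ring

/-- Cauchy-Schwarz -/
lemma cs {X : Type*} [MeasurableSpace X] (ν : Measure X) [IsProbabilityMeasure ν] {f g : X → ℝ}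
    (hf : BM f) (hg : BM g) :
    ∫ x, |f x| * |g x| ∂ν ≤ Real.sqrt (∫ x, f x ^ 2 ∂ν) * Real.sqrt (∫ x, g x ^ 2 ∂ν) := by
  set A := ∫ x, f x ^ 2 ∂ν with hA
  set B := ∫ x, g x ^ 2 ∂ν with hB
  set C := ∫ x, |f x| * |g x| ∂ν with hC
  have hA0 : 0 ≤ A := integral_nonneg fun _ => sq_nonneg _
  have key : ∀ t : ℝ, 0 ≤ A * (t * t) + (-2 * C) * t + B := by
    intro t
    have h1 : 0 ≤ ∫ p, (t * |f p| - |g p|) ^ 2 ∂ν := integral_nonneg fun _ => sq_nonneg _
    have h2 : ∀ p, (t * |f p| - |g p|) ^ 2 =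
        t ^ 2 * f p ^ 2 + (-2 * t) * (|f p| * |g p|) + g p ^ 2 := by
      intro p
      rw [← sq_abs (f p), ← sq_abs (g p)]
      ring
    simp only [h2] at h1
    rw [integral_add, integral_add, integral_const_mul, integral_const_mul] at h1
    · rw [← hA, ← hB, ← hC] at h1
      linarith
    · exact ((BM.const _).mul (hf.pow 2)).integrable _
    · exact ((BM.const _).mul (hf.abs.mul hg.abs)).integrable _
    · exact (((BM.const _).mul (hf.pow 2)).add
        ((BM.const _).mul (hf.abs.mul hg.abs))).integrable _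
    · exact (hg.pow 2).integrable _
  have hd := discrim_le_zero key
  unfold discrim at hd
  rw [← Real.sqrt_mul hA0]
  apply Real.le_sqrt_of_sq_le
  nlinarith

end H322

section

variable {V : Type*} [Fintype V] [DecidableEq V] {Ω : Type*} [MeasurableSpace Ω]
variable (μ : Measure Ω) [IsProbabilityMeasure μ] {U : Sym2 Ω → ℝ} {κ η : ℝ}

/-- the change of `Phi` when a neighbour is removed -/
theorem abs_Phi_sub_le (hU : Ker μ U κ η) {D : ℕ} {σ : ℝ} (hn : Num D κ η σ)
    {N : V → Finset V} {b : V} (hb : (N b).card ≤ D) (S : Finset V) (a : V) (z : V → Ω) :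
    |Phi μ U N S b z - Phi μ U N (insert a S) b z| ≤ 2 * κ := by
  have hκ := hU.κ0
  by_cases h : a ∈ N b ∧ a ∉ S
  · rw [Phi_split μ hU N S h.1 h.2 z, add_sub_cancel_left]
    have hbm : BM (fun y : Ω => U s(z a, y) * ∏ c ∈ N b \ insert a S, (1 + U s(z c, y))) :=
      (hU.good.bm_two.comp (g := fun y : Ω => (z a, y)) (by fun_prop)).mul
        (bm_prod_at hU.good _ z)
    have hc : (N b \ insert a S).card ≤ D := (Finset.card_le_card Finset.sdiff_subset).trans hb
    calc |∫ y, U s(z a, y) * ∏ c ∈ N b \ insert a S, (1 + U s(z c, y)) ∂μ| ≤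
          ∫ y, |U s(z a, y) * ∏ c ∈ N b \ insert a S, (1 + U s(z c, y))| ∂μ :=
          abs_integral_le_integral_abs
      _ ≤ ∫ y, 2 * |U s(z a, y)| ∂μ := by
          apply integral_mono (hbm.abs.integrable _)
            (((BM.const 2).mul (bm_absU hU.good (z a))).integrable _)
          intro y
          show |U s(z a, y) * ∏ c ∈ N b \ insert a S, (1 + U s(z c, y))| ≤ 2 * |U s(z a, y)|
          rw [abs_mul, abs_of_nonneg (prod_nonneg' hU _ z y), mul_comm]
          exact mul_le_mul_of_nonneg_right (prod_le_two hU hn hc z y) (abs_nonneg _)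
      _ ≤ 2 * κ := by
          rw [integral_const_mul]
          have := hU.l1 (z a)
          exact mul_le_mul_of_nonneg_left this (by norm_num)
  · have e : N b \ insert a S = N b \ S := by
      ext c
      simp only [Finset.mem_sdiff, Finset.mem_insert, not_or]
      constructor
      · rintro ⟨h1, _, h2⟩
        exact ⟨h1, h2⟩
      · rintro ⟨h1, h2⟩
        refine ⟨h1, ?_, h2⟩
        rintro rfl
        exact h ⟨h1, h2⟩
    unfold Phi
    rw [e, sub_self, abs_zero]
    positivity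

/-- all private neighbours other than the marked vertex can be dropped -/
theorem phig_sh {N : V → Finset V} {B γ : Finset V} {D : ℕ} (hN : Bip N B D) (hU : Ker μ U κ η)
    (hγ : γ ⊆ B) {g : Ω → ℝ} (hgm : BM g) {a : V} (ha : a ∉ B) :
    phig μ U N g a γ =
      ∫ z, g (z a) * ∏ b ∈ γ, Phi μ U N (N b \ insert a (sh N γ b)) b z ∂(piM V μ) := by
  have key : ∀ T : Finset V, T ⊆ γ → phig μ U N g a γ =
      ∫ z, g (z a) * ∏ b ∈ γ,
        Phi μ U N (if b ∈ T then N b \ insert a (sh N γ b) else ∅) b z ∂(piM V μ) := by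
    intro T
    induction T using Finset.induction_on with
    | empty => intro _; simp [phig]
    | insert b₀ T hb₀ ih =>
      intro hT
      have hb₀γ : b₀ ∈ γ := hT (Finset.mem_insert_self _ _)
      have hab : a ≠ b₀ := by rintro rfl; exact ha (hγ hb₀γ)
      rw [ih ((Finset.subset_insert _ _).trans hT)]
      set f : (V → Ω) → ℝ := fun z => g (z a) * ∏ b ∈ γ.erase b₀,
        Phi μ U N (if b ∈ T then N b \ insert a (sh N γ b) else ∅) b z with hf
      have hfbm : BM f := (hgm.comp (measurable_pi_apply a)).mul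
        (BM.finprod _ fun b _ => bm_Phi μ hU.good N _ b)
      have e1 : ∀ z : V → Ω, g (z a) * ∏ b ∈ γ,
          Phi μ U N (if b ∈ T then N b \ insert a (sh N γ b) else ∅) b z =
          f z * Phi μ U N ∅ b₀ z := by
        intro z
        rw [← Finset.mul_prod_erase γ _ hb₀γ, if_neg hb₀]
        simp only [hf]
        ring
      have e2 : ∀ z : V → Ω, g (z a) * ∏ b ∈ γ,
          Phi μ U N (if b ∈ insert b₀ T then N b \ insert a (sh N γ b) else ∅) b z =
          f z * Phi μ U N (N b₀ \ insert a (sh N γ b₀)) b₀ z := by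
        intro z
        rw [← Finset.mul_prod_erase γ _ hb₀γ, if_pos (Finset.mem_insert_self _ _)]
        have e3 : ∏ b ∈ γ.erase b₀, Phi μ U N (if b ∈ insert b₀ T then
            N b \ insert a (sh N γ b) else ∅) b z =
            ∏ b ∈ γ.erase b₀, Phi μ U N (if b ∈ T then
            N b \ insert a (sh N γ b) else ∅) b z := by
          refine Finset.prod_congr rfl fun b hb => ?_
          have : b ≠ b₀ := (Finset.mem_erase.1 hb).1
          simp only [Finset.mem_insert, this, false_or]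
        rw [e3]
        simp only [hf]
        ring
      simp only [e1, e2]
      refine int_Phi_drop μ hU N (fun h => hN.out b₀ (hγ hb₀γ) b₀ h (hγ hb₀γ)) hfbm ?_ _
        Finset.sdiff_subset ?_
      · intro x t
        simp only [hf]
        rw [Function.update_of_ne hab]
        congr 1
        refine Finset.prod_congr rfl fun b hb => ?_
        refine Phi_ind μ N _ b ?_ x t
        intro h
        exact hN.out b (hγ (Finset.mem_erase.1 hb).2) b₀ (Finset.mem_sdiff.1 h).1 (hγ hb₀γ)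
      · intro c hc x t
        rw [Finset.mem_sdiff, Finset.mem_insert, not_or] at hc
        simp only [hf]
        rw [Function.update_of_ne (Ne.symm hc.2.1)]
        congr 1
        refine Finset.prod_congr rfl fun b hb => ?_
        refine Phi_ind μ N _ b ?_ x t
        intro h
        refine hc.2.2 ?_
        unfold sh
        rw [Finset.mem_filter]
        exact ⟨hc.1, b, (Finset.mem_erase.1 hb).2, (Finset.mem_erase.1 hb).1,
          (Finset.mem_sdiff.1 h).1⟩
  rw [key γ (Finset.Subset.refl _)]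
  congr 1
  ext z
  congr 1
  refine Finset.prod_congr rfl fun b hb => ?_
  rw [if_pos hb]

/-- the number of shared neighbours, sharp form -/
theorem card_sh_le' {N : V → Finset V} {γ : Finset V} {M : ℕ}
    (hM : ∀ b ∈ γ, ∀ b' ∈ γ, b ≠ b' → (N b ∩ N b').card ≤ M) {b : V} (hb : b ∈ γ) :
    (sh N γ b).card ≤ (γ.card - 1) * M := by
  have h1 : sh N γ b ⊆ (γ.erase b).biUnion (fun b' => N b ∩ N b') := by
    intro a ha
    obtain ⟨h2, b', h3, h4, h5⟩ := Finset.mem_filter.1 ha
    rw [Finset.mem_biUnion]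
    exact ⟨b', Finset.mem_erase.2 ⟨h4, h3⟩, Finset.mem_inter.2 ⟨h2, h5⟩⟩
  calc (sh N γ b).card ≤ ((γ.erase b).biUnion (fun b' => N b ∩ N b')).card :=
        Finset.card_le_card h1
    _ ≤ ∑ b' ∈ γ.erase b, (N b ∩ N b').card := Finset.card_biUnion_le
    _ ≤ ∑ _b' ∈ γ.erase b, M := by
        apply Finset.sum_le_sum
        intro b' hb'
        obtain ⟨h2, h3⟩ := Finset.mem_erase.1 hb'
        exact hM b hb b' h3 h2.symm
    _ = (γ.card - 1) * M := by
        rw [Finset.sum_const, smul_eq_mul, Finset.card_erase_of_mem hb]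

/-- the marked activity in terms of the numbers of shared neighbours -/
theorem phig_two_bound {N : V → Finset V} {B γ : Finset V} {D : ℕ} (hN : Bip N B D)
    (hU : Ker μ U κ η) {σ : ℝ} (hn : Num D κ η σ) (hγ : γ ⊆ B) {b₁ b₂ : V} (h₁ : b₁ ∈ γ)
    (h₂ : b₂ ∈ γ) (hne : b₁ ≠ b₂) {g : Ω → ℝ} (hgm : BM g) (hg0 : ∫ s, g s ∂μ = 0) {a : V}
    (ha : a ∉ B) {r : ℝ} (hr : 0 ≤ r) (hs : ∀ b ∈ γ, ((sh N γ b).card : ℝ) + 1 ≤ r) :
    |phig μ U N g a γ| ≤ 2 * κ * γ.card * σ ^ (γ.card - 2) *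
      (Real.sqrt (∫ s, g s ^ 2 ∂μ) * Real.sqrt (2 * r ^ 2 * ck μ U 2)) := by
  have hκ := hU.κ0
  have hck := ck_nonneg μ (U := U) 2
  set x : V → (V → Ω) → ℝ := fun b z => Phi μ U N (N b \ insert a (sh N γ b)) b z with hx
  set y : V → (V → Ω) → ℝ := fun b z =>
    Phi μ U N (insert a (N b \ insert a (sh N γ b))) b z with hy
  set m : V → (V → Ω) → ℝ := fun b z => max |x b z| |y b z| with hm
  have hxbm : ∀ b, BM (x b) := fun b => bm_Phi μ hU.good N _ b
  have hybm : ∀ b, BM (y b) := fun b => bm_Phi μ hU.good N _ b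
  have hgz : BM (fun z : V → Ω => g (z a)) := hgm.comp (measurable_pi_apply a)
  have hyprod : ∫ z, g (z a) * ∏ b ∈ γ, y b z ∂(piM V μ) = 0 := by
    have hb1 : BM (fun z : V → Ω => g (z a) * ∏ b ∈ γ, y b z) :=
      hgz.mul (BM.finprod _ fun b _ => hybm b)
    rw [integral_update μ a hb1]
    have h1 : ∀ (z : V → Ω) (t : Ω), ∏ b ∈ γ, y b (Function.update z a t) = ∏ b ∈ γ, y b z := by
      intro z t
      refine Finset.prod_congr rfl fun b _ => ?_
      refine Phi_ind μ N _ b ?_ z t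
      simp
    simp only [h1, Function.update_self, integral_mul_const, hg0, zero_mul, integral_zero]
  have hdiff : phig μ U N g a γ =
      ∫ z, g (z a) * (∏ b ∈ γ, x b z - ∏ b ∈ γ, y b z) ∂(piM V μ) := by
    rw [phig_sh μ hN hU hγ hgm ha]
    simp only [mul_sub]
    rw [integral_sub ((hgz.mul (BM.finprod _ fun b _ => hxbm b)).integrable _)
      ((hgz.mul (BM.finprod _ fun b _ => hybm b)).integrable _), hyprod, sub_zero]
  -- the vertex which stays in `L²`
  set w : V → V := fun b => if b = b₁ then b₂ else b₁ with hw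
  have hwγ : ∀ b ∈ γ, w b ∈ γ.erase b := by
    intro b hb
    simp only [hw]
    split_ifs with h
    · subst h
      exact Finset.mem_erase.2 ⟨hne.symm, h₂⟩
    · exact Finset.mem_erase.2 ⟨fun h' => h h'.symm, h₁⟩
  have hmaxσ : ∀ b ∈ γ, ∀ z, m b z ≤ σ := fun b hb z =>
    max_le (abs_Phi_le μ hU hn hN (hγ hb) _ z) (abs_Phi_le μ hU hn hN (hγ hb) _ z)
  have hmax0 : ∀ b z, 0 ≤ m b z := fun b z => le_max_of_le_left (abs_nonneg _)
  have hpt : ∀ z, |g (z a) * (∏ b ∈ γ, x b z - ∏ b ∈ γ, y b z)| ≤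
      ∑ b ∈ γ, (2 * κ * σ ^ (γ.card - 2)) *
        (|g (z a)| * |m (w b) z|) := by
    intro z
    rw [abs_mul]
    refine (mul_le_mul_of_nonneg_left (abs_prod_sub_prod_le γ (fun b => x b z)
      (fun b => y b z)) (abs_nonneg _)).trans ?_
    rw [Finset.mul_sum]
    apply Finset.sum_le_sum
    intro b hb
    have h3 : ∏ j ∈ γ.erase b, m j z ≤
        σ ^ (γ.card - 2) * m (w b) z := by
      rw [← Finset.mul_prod_erase _ (fun j => m j z) (hwγ b hb), mul_comm]
      refine mul_le_mul_of_nonneg_right ?_ (hmax0 _ _)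
      have hcard : ((γ.erase b).erase (w b)).card = γ.card - 2 := by
        rw [Finset.card_erase_of_mem (hwγ b hb), Finset.card_erase_of_mem hb]
        omega
      rw [← hcard, ← Finset.prod_const]
      apply Finset.prod_le_prod (fun j _ => hmax0 j z)
      intro j hj
      exact hmaxσ j (Finset.mem_of_mem_erase (Finset.mem_of_mem_erase hj)) z
    have h4 : |x b z - y b z| ≤ 2 * κ := abs_Phi_sub_le μ hU hn (hN.dB b (hγ hb)) _ a z
    have h5 : |x b z - y b z| * ∏ j ∈ γ.erase b, m j z ≤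
        2 * κ * (σ ^ (γ.card - 2) * m (w b) z) :=
      mul_le_mul h4 h3 (Finset.prod_nonneg fun j _ => hmax0 j z) (by positivity)
    calc |g (z a)| * (|x b z - y b z| * ∏ j ∈ γ.erase b, m j z) ≤
          |g (z a)| * (2 * κ * (σ ^ (γ.card - 2) * m (w b) z)) :=
          mul_le_mul_of_nonneg_left h5 (abs_nonneg _)
      _ = (2 * κ * σ ^ (γ.card - 2)) * (|g (z a)| * |m (w b) z|) := by
          rw [abs_of_nonneg (hmax0 (w b) z)]
          ring
  have hmbm : ∀ b, BM (m b) := by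
    intro b
    obtain ⟨C, hC⟩ := (hxbm b).bdd
    obtain ⟨C', hC'⟩ := (hybm b).bdd
    refine ⟨(hxbm b).meas.abs.max (hybm b).meas.abs, max C C', fun z => ?_⟩
    rw [abs_of_nonneg (hmax0 b z)]
    exact max_le_max (hC z) (hC' z)
  have hint : ∀ b ∈ γ, ∫ z, |g (z a)| * |m b z| ∂(piM V μ) ≤
      Real.sqrt (∫ s, g s ^ 2 ∂μ) * Real.sqrt (2 * r ^ 2 * ck μ U 2) := by
    intro b hb
    refine (cs (piM V μ) hgz (hmbm b)).trans ?_
    have e1 : ∫ z : V → Ω, g (z a) ^ 2 ∂(piM V μ) = ∫ s, g s ^ 2 ∂μ :=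
      integral_eval μ a (g := fun s => g s ^ 2) (hgm.pow 2)
    rw [e1]
    refine mul_le_mul_of_nonneg_left (Real.sqrt_le_sqrt ?_) (Real.sqrt_nonneg _)
    have h1 : ∫ z, (m b z) ^ 2 ∂(piM V μ) ≤
        ∫ z, (x b z ^ 2 + y b z ^ 2) ∂(piM V μ) := by
      apply integral_mono (((hmbm b).pow 2).integrable _)
        ((((hxbm b).pow 2).add ((hybm b).pow 2)).integrable _)
      intro z
      show (max |x b z| |y b z|) ^ 2 ≤ x b z ^ 2 + y b z ^ 2
      rcases max_cases |x b z| |y b z| with h | h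
      · rw [h.1, sq_abs]
        nlinarith [sq_nonneg (y b z)]
      · rw [h.1, sq_abs]
        nlinarith [sq_nonneg (x b z)]
    rw [integral_add (((hxbm b).pow 2).integrable _) (((hybm b).pow 2).integrable _)] at h1
    have hcx : ((N b \ (N b \ insert a (sh N γ b))).card : ℝ) ≤ r := by
      refine le_trans ?_ (hs b hb)
      have h2 : N b \ (N b \ insert a (sh N γ b)) ⊆ insert a (sh N γ b) := by
        intro c hc
        simp only [Finset.mem_sdiff, not_and, not_not] at hc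
        exact hc.2 hc.1
      exact_mod_cast (Finset.card_le_card h2).trans (Finset.card_insert_le _ _)
    have hcy : ((N b \ insert a (N b \ insert a (sh N γ b))).card : ℝ) ≤ r := by
      refine le_trans ?_ hcx
      exact_mod_cast Finset.card_le_card
        (Finset.sdiff_subset_sdiff (Finset.Subset.refl _) (Finset.subset_insert _ _))
    have q1 := int_Phi_sq_le μ hN hU hn (hγ hb) (N b \ insert a (sh N γ b))
    have q2 := int_Phi_sq_le μ hN hU hn (hγ hb) (insert a (N b \ insert a (sh N γ b)))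
    have q3 : ((N b \ (N b \ insert a (sh N γ b))).card : ℝ) ^ 2 ≤ r ^ 2 :=
      pow_le_pow_left₀ (Nat.cast_nonneg _) hcx 2
    have q4 : ((N b \ insert a (N b \ insert a (sh N γ b))).card : ℝ) ^ 2 ≤ r ^ 2 :=
      pow_le_pow_left₀ (Nat.cast_nonneg _) hcy 2
    have q5 := mul_le_mul_of_nonneg_right q3 hck
    have q6 := mul_le_mul_of_nonneg_right q4 hck
    linarith
  rw [hdiff]
  refine abs_integral_le_integral_abs.trans ?_
  have hb2 : ∀ b, BM (fun z => (2 * κ * σ ^ (γ.card - 2)) *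
        (|g (z a)| * |m (w b) z|)) := fun b =>
    (BM.const _).mul (hgz.abs.mul (hmbm (w b)).abs)
  refine (integral_mono (((hgz.mul ((BM.finprod _ fun b _ => hxbm b).sub
    (BM.finprod _ fun b _ => hybm b))).abs).integrable _)
    ((BM.finsum γ fun b _ => hb2 b).integrable _) hpt).trans ?_
  rw [integral_finset_sum _ fun b _ => (hb2 b).integrable _]
  have hc0 : 0 ≤ 2 * κ * σ ^ (γ.card - 2) := mul_nonneg (by positivity) (pow_nonneg hn.σ0 _)
  calc ∑ b ∈ γ, ∫ z, (2 * κ * σ ^ (γ.card - 2)) *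
        (|g (z a)| * |m (w b) z|) ∂(piM V μ) ≤
        ∑ _b ∈ γ, (2 * κ * σ ^ (γ.card - 2)) *
          (Real.sqrt (∫ s, g s ^ 2 ∂μ) * Real.sqrt (2 * r ^ 2 * ck μ U 2)) := by
        apply Finset.sum_le_sum
        intro b hb
        rw [integral_const_mul]
        exact mul_le_mul_of_nonneg_left (hint (w b) (Finset.mem_of_mem_erase (hwγ b hb))) hc0
    _ = _ := by
        rw [Finset.sum_const, nsmul_eq_mul]
        ring

/-- **polymers with a cycle of length `4` and a marked vertex** -/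
theorem phig_two_gain {N : V → Finset V} {B γ : Finset V} {D : ℕ} (hN : Bip N B D)
    (hU : Ker μ U κ η) {σ : ℝ} (hn : Num D κ η σ) (hγ : γ ⊆ B)
    (h4 : ∃ b ∈ γ, ∃ b' ∈ γ, b ≠ b' ∧ 2 ≤ (N b ∩ N b').card) {g : Ω → ℝ} (hgm : BM g)
    (hg0 : ∫ s, g s ∂μ = 0) {a : V} (ha : a ∉ B) :
    ∃ b ∈ γ, ∃ b' ∈ γ, b ≠ b' ∧ 2 ≤ (N b ∩ N b').card ∧
      |phig μ U N g a γ| ≤ 8 * γ.card ^ 2 * κ * σ ^ (γ.card - 2) *
        Real.sqrt (phi μ U N {b, b'}) * Real.sqrt (∫ s, g s ^ 2 ∂μ) := by
  obtain ⟨c, hc, c', hc', hcc, h2⟩ := h4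
  have hne : (γ.offDiag).Nonempty := ⟨(c, c'), Finset.mem_offDiag.2 ⟨hc, hc', hcc⟩⟩
  obtain ⟨⟨b, b'⟩, hbb, hmax⟩ := Finset.exists_max_image γ.offDiag
    (fun p => (N p.1 ∩ N p.2).card) hne
  obtain ⟨hb, hb', hbne⟩ := Finset.mem_offDiag.1 hbb
  simp only at hb hb' hbne
  set M := (N b ∩ N b').card with hMdef
  have hM2 : 2 ≤ M := h2.trans (hmax (c, c') (Finset.mem_offDiag.2 ⟨hc, hc', hcc⟩))
  refine ⟨b, hb, b', hb', hbne, hM2, ?_⟩
  have hM : ∀ b₁ ∈ γ, ∀ b₂ ∈ γ, b₁ ≠ b₂ → (N b₁ ∩ N b₂).card ≤ M := fun b₁ h₁ b₂ h₂ h =>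
    hmax (b₁, b₂) (Finset.mem_offDiag.2 ⟨h₁, h₂, h⟩)
  have hcard : 1 ≤ γ.card := Finset.card_pos.2 ⟨b, hb⟩
  have hs : ∀ b ∈ γ, ((sh N γ b).card : ℝ) + 1 ≤ (γ.card : ℝ) * M := by
    intro b hb
    have h3 := card_sh_le' hM hb
    have h5 : (sh N γ b).card + 1 ≤ γ.card * M := by
      obtain ⟨n, hn⟩ : ∃ n, γ.card = n + 1 := ⟨γ.card - 1, by omega⟩
      rw [hn] at h3 ⊢
      rw [Nat.add_sub_cancel] at h3
      rw [Nat.add_mul]
      omega
    exact_mod_cast h5
  have hmain := phig_two_bound μ hN hU hn hγ hb hb' hbne hgm hg0 ha (by positivity) hs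
  refine hmain.trans ?_
  have hck := ck_nonneg μ (U := U) 2
  have h8 := phi_pair_ge μ hN hU hn (hγ hb) hbne
  rw [← hMdef] at h8
  have hM2' : (2:ℝ) ≤ M := by exact_mod_cast hM2
  have hσ0 : 0 ≤ σ ^ (γ.card - 2) := pow_nonneg hn.σ0 _
  have h9 : (M:ℝ) ^ 2 * ck μ U 2 ≤ 8 * phi μ U N {b, b'} := by
    have : (M:ℝ) ^ 2 ≤ 8 * (M * (M - 1) / 4) := by nlinarith
    calc (M:ℝ) ^ 2 * ck μ U 2 ≤ 8 * (M * (M - 1) / 4) * ck μ U 2 :=
          mul_le_mul_of_nonneg_right this hck
      _ = 8 * ((M * (M - 1) / 4 : ℝ) * ck μ U 2) := by ring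
      _ ≤ 8 * phi μ U N {b, b'} := by linarith
  have h10 : Real.sqrt (2 * ((γ.card : ℝ) * M) ^ 2 * ck μ U 2) ≤
      4 * γ.card * Real.sqrt (phi μ U N {b, b'}) := by
    have hphi := phi_pair_nonneg μ hN hU hn (hγ hb) hbne
    rw [show (4 * (γ.card : ℝ) * Real.sqrt (phi μ U N {b, b'})) =
      Real.sqrt ((4 * (γ.card : ℝ)) ^ 2 * phi μ U N {b, b'}) by
        rw [Real.sqrt_mul (by positivity), Real.sqrt_sq (by positivity)]]
    apply Real.sqrt_le_sqrt
    calc 2 * ((γ.card : ℝ) * M) ^ 2 * ck μ U 2 = 2 * (γ.card : ℝ) ^ 2 * (M ^ 2 * ck μ U 2) := by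
          ring
      _ ≤ 2 * (γ.card : ℝ) ^ 2 * (8 * phi μ U N {b, b'}) :=
          mul_le_mul_of_nonneg_left h9 (by positivity)
      _ = _ := by ring
  have hκ := hU.κ0
  calc 2 * κ * γ.card * σ ^ (γ.card - 2) *
        (Real.sqrt (∫ s, g s ^ 2 ∂μ) * Real.sqrt (2 * ((γ.card : ℝ) * M) ^ 2 * ck μ U 2)) ≤
        2 * κ * γ.card * σ ^ (γ.card - 2) *
        (Real.sqrt (∫ s, g s ^ 2 ∂μ) * (4 * γ.card * Real.sqrt (phi μ U N {b, b'}))) := by
        refine mul_le_mul_of_nonneg_left (mul_le_mul_of_nonneg_left h10 (Real.sqrt_nonneg _)) ?_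
        positivity
    _ = _ := by ring

end

end Vale.Agent.P050.Dense
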